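import Vale.Agent.Lib.P174.Chain

/-!
# Howie's conjecture is inherited by extensions

`Howie k G`: every finite system over `G` whose exponent-sum matrix has linearly independent rows
over the field `k` is solvable over `G`.  For `k = ℚ` this is Q1 for `G`; for `k = ZMod p` these
are the systems that are nonsingular modulo `p`.
-/

namespace Vale.Agent.Results.P174.Extensions

open Vale.Agent.Lib.P174

universe u

theorem result :
    -- (1) Q1 passes from `N = s 0` to `G` along torsion-free abelian factors
    (∀ (G : Type u) [Group G] (r : ℕ) (s : ℕ → Subgroup G), s r = ⊤ →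
      (∀ i < r, s i ≤ s (i + 1) ∧ TFAb (s i) (s (i + 1))) →
      Howie ℚ (s 0) → Howie ℚ G) ∧
    -- (2) systems nonsingular mod `p`: also finite `p`-groups and elementary abelian `p`-groups
    (∀ (p : ℕ) [Fact p.Prime] (G : Type u) [Group G] (r : ℕ) (s : ℕ → Subgroup G), s r = ⊤ →
      (∀ i < r, s i ≤ s (i + 1) ∧
        (TFAb (s i) (s (i + 1)) ∨ ElP p (s i) (s (i + 1)) ∨ FinP p (s i) (s (i + 1)))) →
      Howie (ZMod p) (s 0) → Howie (ZMod p) G) ∧
    -- (3) residual closure
    (∀ (k : Type) [Field k] (G : Type u) [Group G],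
      (∀ g : G, g ≠ 1 → ∃ (K : Subgroup G) (_ : K.Normal), g ∉ K ∧ Howie k (G ⧸ K)) →
      Howie k G) :=
  ⟨fun _ _ r s hr hs h0 => chain_tf r s hr hs h0,
    fun _ _ _ _ r s hr hs h0 => chain_p r s hr hs h0,
    fun _ _ _ _ h => howie_residual h⟩

end Vale.Agent.Results.P174.Extensions
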